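import Vale.Agent.P097F.V.Defs

/-!
# P097F.V: averaging over the windows
-/

set_option linter.all false

noncomputable section

namespace Vale.Agent.P097F.V

open Filter Topology Set Metric MeasureTheory

theorem swap_c {F : ℝ → ℝ → ℝ} (h : Continuous F.uncurry) (a b c d : ℝ) :
    ∫ x in a..b, ∫ y in c..d, F x y = ∫ y in c..d, ∫ x in a..b, F x y :=
  intervalIntegral_intervalIntegral_swap
    ((h.continuousOn.integrableOn_compact (isCompact_uIcc.prod isCompact_uIcc)).mono_set
      (prod_mono uIoc_subset_uIcc uIoc_subset_uIcc))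

theorem avg : S_AVG := by
  intro f B t₀ t₁ D ρ h hf ht hρ hD h0 hB H
  have cn : Continuous f.uncurry := hf.cn
  have D0 : 0 < D := by linarith
  let Hx : ℝ → ℝ := fun x => ∫ t in t₀..t₁, f x t
  have cH : Continuous Hx :=
    intervalIntegral.continuous_parametric_intervalIntegral_of_continuous' cn _ _
  have nH : ∀ x, 0 ≤ Hx x := fun x => intervalIntegral.integral_nonneg ht fun t _ => hf.nn x t
  have pH : Function.Periodic Hx 1 := fun x => by simp only [Hx, hf.per]
  let Ph : ℝ → ℝ := fun s => ∫ x in (-(4 * D))..(4 * D), Hx (s + x)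
  have c2 : Continuous (Function.uncurry fun s x : ℝ => Hx (s + x)) :=
    cH.comp (continuous_fst.add continuous_snd)
  have cP : Continuous Ph :=
    intervalIntegral.continuous_parametric_intervalIntegral_of_continuous' c2 _ _
  have nP : ∀ s, 0 ≤ Ph s := fun s =>
    intervalIntegral.integral_nonneg (by linarith) fun x _ => nH _
  have iP : ∫ s in (0 : ℝ)..1, Ph s = 8 * D * ∫ x in (0 : ℝ)..1, Hx x := by
    have e : ∀ x : ℝ, ∫ s in (0 : ℝ)..1, Hx (s + x) = ∫ x in (0 : ℝ)..1, Hx x := fun x => by
      rw [intervalIntegral.integral_comp_add_right Hx x, zero_add, add_comm,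
        pH.intervalIntegral_add_eq x 0, zero_add]
    simp only [Ph]
    rw [swap_c c2]
    simp only [e, intervalIntegral.integral_const, smul_eq_mul]
    ring
  have good : ∀ s ∉ B, 2 * ρ * h ≤ Ph s := by
    intro s hs
    obtain ⟨x₀, τ, l, h1, h2, h3, h4, h5⟩ := H s hs
    have c3 : Continuous (Function.uncurry fun ξ σ : ℝ => f (x₀ + ξ + l * σ) (τ + σ)) :=
      cn.comp (f := fun p : ℝ × ℝ => (x₀ + p.1 + l * p.2, τ + p.2)) (by fun_prop)
    have c4 : Continuous (Function.uncurry fun t x : ℝ => f (s + x) t) :=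
      cn.comp (f := fun p : ℝ × ℝ => (s + p.2, p.1)) (by fun_prop)
    have c5 : Continuous (Function.uncurry fun σ ξ : ℝ => f (x₀ + ξ + l * σ) (τ + σ)) :=
      cn.comp (f := fun p : ℝ × ℝ => (x₀ + p.2 + l * p.1, τ + p.1)) (by fun_prop)
    let J : ℝ → ℝ := fun t => ∫ x in (-(4 * D))..(4 * D), f (s + x) t
    have cJ : Continuous J :=
      intervalIntegral.continuous_parametric_intervalIntegral_of_continuous' c4 _ _
    have nJ : ∀ t, 0 ≤ J t := fun t =>
      intervalIntegral.integral_nonneg (by linarith) fun x _ => hf.nn _ _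
    have hρ' : -ρ ≤ ρ := by linarith
    calc 2 * ρ * h = ∫ ξ in -ρ..ρ, h := by
          rw [intervalIntegral.integral_const, smul_eq_mul]; ring
      _ ≤ ∫ ξ in -ρ..ρ, ∫ σ in -ρ..ρ, f (x₀ + ξ + l * σ) (τ + σ) :=
          intervalIntegral.integral_mono_on hρ' (continuous_const.intervalIntegrable _ _)
            ((intervalIntegral.continuous_parametric_intervalIntegral_of_continuous' c3
              _ _).intervalIntegrable _ _) h5
      _ = ∫ σ in -ρ..ρ, ∫ ξ in -ρ..ρ, f (x₀ + ξ + l * σ) (τ + σ) := swap_c c3 _ _ _ _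
      _ ≤ ∫ σ in -ρ..ρ, J (σ + τ) := by
          refine intervalIntegral.integral_mono_on hρ'
            ((intervalIntegral.continuous_parametric_intervalIntegral_of_continuous' c5
              _ _).intervalIntegrable _ _)
            ((cJ.comp (continuous_id.add continuous_const)).intervalIntegrable _ _) fun σ hσ => ?_
          have e : ∀ ξ, f (x₀ + ξ + l * σ) (τ + σ) =
              (fun x => f (s + x) (σ + τ)) (ξ + (x₀ + l * σ - s)) := fun ξ => by
            simp only; congr 1 <;> ring
          simp only [e]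
          rw [intervalIntegral.integral_comp_add_right (fun x => f (s + x) (σ + τ))]
          have b1 : |l * σ| ≤ 2 * ρ := by
            rw [abs_mul]
            exact mul_le_mul h2 (abs_le.2 hσ) (abs_nonneg _) (by norm_num)
          have b2 := abs_le.1 b1
          have b3 := abs_le.1 h1
          exact intervalIntegral.integral_mono_interval (by linarith [b2.1, b3.1]) (by linarith)
            (by linarith [b2.2, b3.2]) (Eventually.of_forall fun x => hf.nn _ _)
            ((cn.comp (f := fun x : ℝ => (s + x, σ + τ)) (by fun_prop)).intervalIntegrable _ _)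
      _ = ∫ t in (-ρ + τ)..(ρ + τ), J t := intervalIntegral.integral_comp_add_right J τ
      _ ≤ ∫ t in t₀..t₁, J t :=
          intervalIntegral.integral_mono_interval (by linarith) (by linarith) (by linarith)
            (Eventually.of_forall nJ) (cJ.intervalIntegrable _ _)
      _ = Ph s := swap_c c4 _ _ _ _
  have mA : MeasurableSet {s | 2 * ρ * h ≤ Ph s} := (isClosed_le continuous_const cP).measurableSet
  have m1 := mul_meas_ge_le_integral_of_nonneg (μ := volume.restrict (Ico (0 : ℝ) 1))
    (Eventually.of_forall nP)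
    ((cP.continuousOn.integrableOn_compact isCompact_Icc).mono_set Ico_subset_Icc_self) (2 * ρ * h)
  rw [integral_Ico_eq_integral_Ioc, ← intervalIntegral.integral_of_le zero_le_one, iP,
    measureReal_restrict_apply mA] at m1
  have f1 : ∀ A : Set ℝ, volume (A ∩ Ico (0 : ℝ) 1) ≠ ⊤ := fun A =>
    ne_top_of_le_ne_top (by simp) (measure_mono (inter_subset_right (s := A) (t := Ico (0 : ℝ) 1)))
  have m2 : (1 : ℝ) ≤ volume.real ({s | 2 * ρ * h ≤ Ph s} ∩ Ico (0 : ℝ) 1) +
      volume.real (B ∩ Ico (0 : ℝ) 1) := by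
    have e : volume.real (Ico (0 : ℝ) 1) = 1 := by simp
    refine e.ge.trans (le_trans (measureReal_mono (fun s hs => ?_)
      (measure_union_ne_top (f1 _) (f1 _))) (measureReal_union_le _ _))
    by_cases hb : s ∈ B
    · exact Or.inr ⟨hb, hs⟩
    · exact Or.inl ⟨good s hb, hs⟩
  have m3 : volume.real (B ∩ Ico (0 : ℝ) 1) ≤ 1 / 2 := ENNReal.toReal_le_of_le_ofReal (by norm_num) hB
  have m4 : 0 ≤ ρ * h := by positivity
  show ρ * h ≤ 8 * D * ∫ x in (0 : ℝ)..1, Hx x
  nlinarith

end Vale.Agent.P097F.V
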