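import Vale.Agent.P097F.V.Defs
import Vale.Agent.P097O.BdCha

/-!
# P097F.V row 8404: one chord
-/

set_option linter.all false

noncomputable section

namespace Vale.Agent.P097F.V

open Filter Topology Set Metric MeasureTheory Complex
open Vale.Agent.P097O.ChaA (cmp vol)

namespace Chd

theorem up {f f1 f2 : ℝ → ℝ} {p q k : ℝ} (hk : 0 < k) (hpq : 1 / k < q - p)
    (d1 : ∀ x ∈ Icc p q, HasDerivAt f (f1 x) x) (d2 : ∀ x ∈ Icc p q, HasDerivAt f1 (f2 x) x)
    (h0 : ∀ x ∈ Icc p q, 0 ≤ f x) (h2 : ∀ x ∈ Icc p q, k ^ 2 * f x ≤ f2 x) (hp : 0 ≤ f1 p) :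
    k * f q / 2 ≤ f1 q := by
  have k0 : 0 < 1 / k := by positivity
  have pq : p ≤ q := by linarith
  have mp : p ∈ Icc p q := ⟨le_rfl, pq⟩
  have mq : q ∈ Icc p q := ⟨pq, le_rfl⟩
  have a1 := cmp (u := fun _ => (0 : ℝ)) (u' := fun _ => 0) (fun x _ => hasDerivAt_const x _) d2 hp
    (fun x hx => le_trans (mul_nonneg (by positivity) (h0 x hx)) (h2 x hx))
  have a2 := cmp (u := fun _ => f p) (u' := fun _ => 0) (fun x _ => hasDerivAt_const x _) d1 le_rfl
    a1 q mq
  have a3 := cmp (u := fun _ => Real.exp (k * p) * (f1 p - k * f p)) (u' := fun _ => 0)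
    (v := fun x => Real.exp (k * x) * (f1 x - k * f x))
    (v' := fun x => Real.exp (k * x) * (f2 x - k ^ 2 * f x)) (fun x _ => hasDerivAt_const x _)
    (fun x hx => ((((hasDerivAt_id x).const_mul k).exp).mul
      ((d2 x hx).sub ((d1 x hx).const_mul k))).congr_deriv (by simp; ring)) le_rfl
    (fun x hx => mul_nonneg (Real.exp_pos _).le (sub_nonneg.2 (h2 x hx))) q mq
  have e : Real.exp (k * q) = Real.exp (k * p) * Real.exp (k * (q - p)) := by
    rw [← Real.exp_add]; congr 1; ring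
  have e2 : 2 ≤ Real.exp (k * (q - p)) := by
    rw [div_lt_iff₀ hk] at hpq
    linarith [Real.add_one_le_exp (k * (q - p))]
  simp only [e, mul_assoc] at a3
  have a4 := le_of_mul_le_mul_left a3 (Real.exp_pos _)
  have a5 : k * f p ≤ k * f q := mul_le_mul_of_nonneg_left a2 hk.le
  have a6 : 0 ≤ k * f q := mul_nonneg hk.le (h0 q mq)
  by_contra hc
  have a7 : f1 q - k * f q < -(k * f q / 2) := by linarith
  nlinarith

theorem dn {f f1 f2 : ℝ → ℝ} {p q k : ℝ} (hk : 0 < k) (hpq : 1 / k < q - p)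
    (d1 : ∀ x ∈ Icc p q, HasDerivAt f (f1 x) x) (d2 : ∀ x ∈ Icc p q, HasDerivAt f1 (f2 x) x)
    (h0 : ∀ x ∈ Icc p q, 0 ≤ f x) (h2 : ∀ x ∈ Icc p q, k ^ 2 * f x ≤ f2 x) (hp : f1 q ≤ 0) :
    k * f p / 2 ≤ -f1 p := by
  have n : ∀ x ∈ Icc (-q) (-p), -x ∈ Icc p q := fun x hx => ⟨by linarith [hx.2], by linarith [hx.1]⟩
  have := up (f := fun x => f (-x)) (f1 := fun x => -f1 (-x)) (f2 := fun x => f2 (-x)) (k := k)
    (p := -q) (q := -p) hk (by linarith)
    (fun x hx => ((d1 _ (n x hx)).comp x (hasDerivAt_neg x)).congr_deriv (by ring))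
    (fun x hx => (((d2 _ (n x hx)).comp x (hasDerivAt_neg x)).neg).congr_deriv (by ring))
    (fun x hx => h0 _ (n x hx)) (fun x hx => h2 _ (n x hx)) (by simpa using hp)
  simpa only [neg_neg] using this

end Chd

open Chd

theorem chd : S_CHD := by
  intro G q z e ρ k h F hk hρ hh he hG cF F0 hF
  have ln : ∀ H : ℂ → ℂ, ∀ t : ℝ, DifferentiableAt ℂ H (z + t * e) →
      HasDerivAt (fun t : ℝ => H (z + t * e)) (deriv H (z + t * e) * e) t := fun H t ht => by
    have h := ht.hasDerivAt.comp (t : ℂ) (((hasDerivAt_id (t : ℂ)).mul_const e).const_add z)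
    rw [one_mul] at h
    exact h.comp_ofReal
  let u : ℝ → ℂ := fun t => G (z + t * e)
  let v : ℝ → ℂ := fun t => deriv G (z + t * e) * e
  let w : ℝ → ℂ := fun t => q (z + t * e) * e ^ 2 * G (z + t * e)
  let f : ℝ → ℝ := fun t => (u t).re * (u t).re + (u t).im * (u t).im
  let f1 : ℝ → ℝ := fun t => 2 * ((v t).re * (u t).re + (v t).im * (u t).im)
  let f2 : ℝ → ℝ := fun t => 2 * ((w t).re * (u t).re + (v t).re * (v t).re +
    ((w t).im * (u t).im + (v t).im * (v t).im))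
  have fe : ∀ t, f t = ‖G (z + t * e)‖ ^ 2 := fun t => by
    rw [Complex.sq_norm, Complex.normSq_apply]
  have D : ∀ t ∈ Icc (-ρ) ρ, HasDerivAt f (f1 t) t ∧ HasDerivAt f1 (f2 t) t ∧
      k ^ 2 * f t ≤ f2 t := fun t ht => by
    obtain ⟨an, ode, k1⟩ := hG t ht
    have d1 : HasDerivAt u (v t) t := ln G t an.differentiableAt
    have d2 : HasDerivAt v (w t) t :=
      ((ln _ t an.deriv.differentiableAt).mul_const e).congr_deriv
        (by rw [ode]; simp only [w]; ring)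
    have r1 : HasDerivAt (fun t => (u t).re) (v t).re t :=
      Complex.reCLM.hasFDerivAt.comp_hasDerivAt t d1
    have r2 : HasDerivAt (fun t => (v t).re) (w t).re t :=
      Complex.reCLM.hasFDerivAt.comp_hasDerivAt t d2
    have i1 : HasDerivAt (fun t => (u t).im) (v t).im t :=
      Complex.imCLM.hasFDerivAt.comp_hasDerivAt t d1
    have i2 : HasDerivAt (fun t => (v t).im) (w t).im t :=
      Complex.imCLM.hasFDerivAt.comp_hasDerivAt t d2
    refine ⟨((r1.mul r1).add (i1.mul i1)).congr_deriv (by simp only [f1]; ring),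
      ((r2.mul r1).add (i2.mul i1)).const_mul 2, ?_⟩
    simp only [f, f2, w, u]
    generalize q (z + t * e) * e ^ 2 = κ at k1 ⊢
    generalize v t = w₁
    generalize G (z + t * e) = w₀
    rw [Complex.mul_re, Complex.mul_im]
    have k0 := add_nonneg (mul_self_nonneg w₀.re) (mul_self_nonneg w₀.im)
    have k2 := mul_le_mul_of_nonneg_right k1 k0
    have k3 := mul_nonneg (sq_nonneg k) k0
    nlinarith [mul_self_nonneg w₁.re, mul_self_nonneg w₁.im]
  have f0 : ∀ t, 0 ≤ f t := fun t => by rw [fe]; positivity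
  have l0 : 0 ≤ 1 / k := by positivity
  have slow : ∀ t ∈ Icc (-ρ) ρ, F t < h → |f1 t| < k * f t / 2 := fun t ht hlt => by
    by_contra hc
    refine absurd (hF t ht ?_) (not_le.2 hlt)
    have a : f1 t = 2 * (v t * (starRingEnd ℂ) (u t)).re := by simp [f1]
    have b : |f1 t| ≤ 2 * (‖deriv G (z + t * e)‖ * ‖e‖ * ‖G (z + t * e)‖) := by
      rw [a, abs_mul, abs_two]
      refine mul_le_mul_of_nonneg_left ((abs_re_le_norm _).trans (le_of_eq ?_)) zero_le_two
      simp only [v, u, norm_mul, RCLike.norm_conj]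
    have c := (not_lt.1 hc).trans b
    rw [fe] at c
    rcases (norm_nonneg (G (z + t * e))).eq_or_lt with g0 | g0
    · rw [← g0, mul_zero]; positivity
    · refine le_of_mul_le_mul_right ?_ g0
      have d : ‖deriv G (z + t * e)‖ * ‖e‖ * ‖G (z + t * e)‖ ≤
          ‖deriv G (z + t * e)‖ * 3 * ‖G (z + t * e)‖ := by gcongr
      nlinarith
  set S := {t : ℝ | t ∈ Icc (-ρ) ρ ∧ F t < h} with hS
  have sub : ∀ p ∈ Icc (-ρ) ρ, ∀ r ∈ Icc (-ρ) ρ, ∀ x ∈ Icc p r, x ∈ Icc (-ρ) ρ :=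
    fun p hp r hr x hx => ⟨hp.1.trans hx.1, hx.2.trans hr.2⟩
  have s1 := vol (S := {t | t ∈ S ∧ 0 ≤ f1 t}) l0 fun p hp r hr hpr => by
    by_contra hc
    have := up hk (not_le.1 hc) (fun x hx => (D x (sub p hp.1.1 r hr.1.1 x hx)).1)
      (fun x hx => (D x (sub p hp.1.1 r hr.1.1 x hx)).2.1) (fun x _ => f0 x)
      (fun x hx => (D x (sub p hp.1.1 r hr.1.1 x hx)).2.2) hp.2
    linarith [(abs_lt.1 (slow r hr.1.1 hr.1.2)).2]
  have s2 := vol (S := {t | t ∈ S ∧ f1 t ≤ 0}) l0 fun p hp r hr hpr => by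
    by_contra hc
    have := dn hk (not_le.1 hc) (fun x hx => (D x (sub p hp.1.1 r hr.1.1 x hx)).1)
      (fun x hx => (D x (sub p hp.1.1 r hr.1.1 x hx)).2.1) (fun x _ => f0 x)
      (fun x hx => (D x (sub p hp.1.1 r hr.1.1 x hx)).2.2) hr.2
    linarith [(abs_lt.1 (slow p hp.1.1 hp.1.2)).1]
  have s3 : volume S ≤ ENNReal.ofReal (2 / k) :=
    calc volume S ≤ volume ({t | t ∈ S ∧ 0 ≤ f1 t} ∪ {t | t ∈ S ∧ f1 t ≤ 0}) :=
          measure_mono fun t ht => (le_total 0 (f1 t)).imp (fun h => ⟨ht, h⟩) fun h => ⟨ht, h⟩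
      _ ≤ _ := (measure_union_le _ _).trans ((add_le_add s1 s2).trans (by
          rw [← ENNReal.ofReal_add l0 l0, ← add_div, one_add_one_eq_two]))
  set T := Icc (-ρ) ρ ∩ F ⁻¹' Ici h with hT
  have mT : MeasurableSet T := (cF.preimage_isClosed_of_isClosed isClosed_Icc isClosed_Ici).measurableSet
  have fT : volume T ≠ ⊤ :=
    ((measure_mono inter_subset_left).trans_lt (isCompact_Icc.measure_lt_top)).ne
  have t1 : 2 * ρ - 2 / k ≤ volume.real T := by
    have a : volume (Icc (-ρ) ρ) ≤ volume T + ENNReal.ofReal (2 / k) :=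
      (measure_mono (t := T ∪ S) fun t ht => (le_or_gt h (F t)).imp (fun k => ⟨ht, k⟩)
        fun k => ⟨ht, k⟩).trans ((measure_union_le _ _).trans (add_le_add le_rfl s3))
    rw [Real.volume_Icc, ← ENNReal.ofReal_toReal fT,
      ← ENNReal.ofReal_add ENNReal.toReal_nonneg (by positivity),
      ENNReal.ofReal_le_ofReal_iff (by positivity)] at a
    rw [Measure.real]
    linarith
  have iF : IntegrableOn F (Icc (-ρ) ρ) := cF.integrableOn_Icc
  rw [intervalIntegral.integral_of_le (by linarith), ← integral_Icc_eq_integral_Ioc]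
  calc h * (2 * ρ - 2 / k) ≤ h * volume.real T := mul_le_mul_of_nonneg_left t1 hh
    _ ≤ ∫ σ in T, F σ := setIntegral_ge_of_const_le_real mT fT (fun x hx => hx.2)
        (iF.mono_set inter_subset_left)
    _ ≤ _ := setIntegral_mono_set iF
        ((ae_restrict_iff' measurableSet_Icc).2 (Eventually.of_forall F0))
        inter_subset_left.eventuallyLE

end Vale.Agent.P097F.V
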