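import Vale.Agent.P097F.V.Defs

/-!
# P097F.V: a large value of `Q` gives a flat disc
-/

set_option linter.all false

namespace Vale.Agent.P097F.V

open Filter Topology Set Metric MeasureTheory Complex
open Vale.Agent.P097T (Strip)

namespace FlatA

lemma dir (q : ℂ) : ∃ l : ℝ, |l| ≤ 2 ∧ 2 / 5 * ‖q‖ ≤ (q * (l + I) ^ 2).re := by
  have e : ∀ l : ℝ, (q * (l + I) ^ 2).re = (l ^ 2 - 1) * q.re - 2 * l * q.im := fun l => by
    simp [pow_two]
    ring
  have h := norm_le_abs_re_add_abs_im q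
  have n := norm_nonneg q
  rcases le_total q.re (-(2 / 5 * ‖q‖)) with k | k
  · exact ⟨0, by simp, by rw [e]; linarith⟩
  rcases le_total 0 q.im with b | b
  · refine ⟨-2, by simp, ?_⟩
    rw [e]
    rw [abs_of_nonneg b] at h
    rcases abs_cases q.re with a | a <;> linarith [a.1, a.2]
  · refine ⟨2, by simp, ?_⟩
    rw [e]
    rw [abs_of_nonpos b] at h
    rcases abs_cases q.re with a | a <;> linarith [a.1, a.2]

lemma nrm {l : ℝ} (h : |l| ≤ 2) : ‖((l : ℂ) + I) ^ 2‖ ≤ 5 := by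
  rw [norm_pow, Complex.sq_norm, normSq_apply]
  simp only [add_re, ofReal_re, I_re, add_im, ofReal_im, I_im]
  nlinarith [abs_le.1 h]

end FlatA

theorem flat : S_FLAT := by
  intro R B c₀ R1 c0
  have R0 : 0 < R := by linarith
  have B0 := abs_nonneg B
  set c := min (c₀ / (100 * (|B| + 1) * R)) (1 / (2 * R)) with hc
  have c1 : c ≤ c₀ / (100 * (|B| + 1) * R) := min_le_left _ _
  have c2 : c ≤ 1 / (2 * R) := min_le_right _ _
  have cp : 0 < c := lt_min (by positivity) (by positivity)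
  rw [le_div_iff₀ (by positivity)] at c1 c2
  refine ⟨c, cp, by linarith, fun r s u d g Q G u0 d0 hr hB ⟨y, y1, y2, y3, y4⟩ hA => ?_⟩
  have hq : c₀ ≤ ‖Q y‖ * u ^ 2 := y4.resolve_left fun k => hA ⟨y, y1, y2, y3, k⟩
  obtain ⟨l, l2, hl⟩ := FlatA.dir (Q y)
  refine ⟨y, l, l2, y1, y2, y3, fun z hz => ?_⟩
  set ρ := d / (2 * R) with hρ
  have ρ0 : 0 < ρ := by positivity
  have ρ1 : ρ ≤ R * d := by
    rw [hρ, div_le_iff₀ (by positivity)]
    nlinarith [mul_pos d0 R0]
  have ρ2 : d / R = 2 * ρ := by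
    rw [hρ]
    field_simp
  have key : ∀ w ∈ ball y ρ, w ∈ Strip r ∧ ‖Q w‖ * u ^ 2 ≤ |B| := fun w hw => by
    have h0 : ‖w - y‖ < ρ := mem_ball_iff_norm.1 hw
    have h1 := abs_lt.1 ((abs_im_le_norm (w - y)).trans_lt h0)
    have h2 := (abs_re_le_norm (w - y)).trans_lt h0
    rw [sub_im] at h1
    rw [sub_re] at h2
    refine ⟨show |w.im| < r from abs_lt.2 ⟨by linarith [G.rpos], by linarith⟩,
      (hB w ?_ (by linarith) (by linarith)).2.trans (le_abs_self B)⟩
    linarith [abs_sub_le w.re y.re s]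
  have cρ : c * d ≤ ρ := by
    rw [hρ, le_div_iff₀ (by positivity)]
    nlinarith
  have z1 : ‖z - y‖ < c * d := mem_ball_iff_norm.1 hz
  have sch := dist_le_div_mul_dist_of_mapsTo_ball (f := Q) (R₂ := 2 * |B| / u ^ 2)
    (G.dQ.mono fun w hw => (key w hw).1) (fun w hw => by
      rw [mem_closedBall_iff_norm, le_div_iff₀ (by positivity)]
      nlinarith [(key w hw).2, (key y (mem_ball_self ρ0)).2, sq_nonneg u,
        mul_le_mul_of_nonneg_right (norm_sub_le (Q w) (Q y)) (sq_nonneg u)])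
    (ball_subset_ball cρ hz)
  rw [dist_eq_norm, dist_eq_norm] at sch
  have s1 : ‖Q z - Q y‖ * u ^ 2 ≤ 4 * |B| * R * c :=
    calc _ ≤ 2 * |B| / u ^ 2 / ρ * (c * d) * u ^ 2 := by
          gcongr
          exact sch.trans (by gcongr)
      _ = _ := by
          rw [hρ]
          field_simp
          ring
  have s2 := (abs_le.1 ((abs_re_le_norm ((Q z - Q y) * (l + I) ^ 2)).trans
    ((norm_mul_le _ _).trans (mul_le_mul_of_nonneg_left (FlatA.nrm l2) (norm_nonneg _))))).1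
  rw [sub_mul, sub_re] at s2
  have s3 : 2 / 5 * ‖Q y‖ - ‖Q z - Q y‖ * 5 ≤ (Q z * (l + I) ^ 2).re := by linarith
  have s4 := mul_le_mul_of_nonneg_right s3 (sq_nonneg u)
  have s5 : c ≤ c * R := le_mul_of_one_le_right cp.le R1
  nlinarith [mul_nonneg (mul_nonneg B0 R0.le) cp.le]

end Vale.Agent.P097F.V
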