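import Vale.Agent.P097F.V.Defs
import Vale.Agent.P097O.Actd
import Vale.Agent.P097O.BdApt

/-!
# P097F.V: the high peaks are forced (row 8410)
-/

set_option linter.all false

namespace Vale.Agent.P097F.V

theorem frc (hF : S_FLAT) : S_FRC := by
  intro r c κ u₀ p θ H Q Y₀ η Y D m N a W G
  obtain ⟨c₀, R, B, A₁, c0, R1, h⟩ := P097O.actd P097O.apt D W G (1 / 2) (by norm_num)
  obtain ⟨c₁, c1, c2, hF⟩ := hF R B c₀ R1 c0
  refine ⟨c₁, R, A₁, c1, R1, c2, fun u pk hu => ?_⟩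
  obtain ⟨k, Bd, v, h⟩ := h u pk hu
  exact ⟨k, Bd, v, fun s hs => hF r s u (η u) _ Q (P097M.gq0 r c θ H Q D.cur) pk.1.1 pk.2.1 k
    (h s hs).1 (h s hs).2.1 fun ⟨y, y1, y2, y3, y4⟩ => (h s hs).2.2 y y1 y2 y3 y4⟩

end Vale.Agent.P097F.V
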