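import Vale.Agent.P097F.V.Defs

/-!
# P097F.V: the Green formula on the periodic strip (row 8402)
-/

set_option linter.all false

noncomputable section

namespace Vale.Agent.P097F.V

open Filter Topology Set Metric MeasureTheory Complex
open Vale.Agent.P097T (Strip)

namespace GreenA

theorem opn (r : ℝ) : IsOpen (Strip r) := isOpen_lt (by fun_prop) continuous_const

theorem dl {g : ℂ → ℂ} {g' z e : ℂ} {s : ℝ} (h : HasDerivAt g g' (z + s * e)) :
    HasDerivAt (fun σ : ℝ => g (z + σ * e)) (g' * e) s := by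
  have h1 : HasDerivAt (fun w : ℂ => z + w * e) e (s : ℂ) := by
    simpa using ((hasDerivAt_id (s : ℂ)).mul_const e).const_add z
  exact (h.comp (s : ℂ) h1).comp_ofReal

/-- the real inner product -/
def ip (a b : ℂ) : ℝ := a.re * b.re + a.im * b.im

theorem dip {a b : ℝ → ℂ} {a' b' : ℂ} {s : ℝ} (ha : HasDerivAt a a' s) (hb : HasDerivAt b b' s) :
    HasDerivAt (fun σ => ip (a σ) (b σ)) (ip a' (b s) + ip (a s) b') s := by
  have a1 := reCLM.hasFDerivAt.comp_hasDerivAt s ha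
  have a2 := imCLM.hasFDerivAt.comp_hasDerivAt s ha
  have b1 := reCLM.hasFDerivAt.comp_hasDerivAt s hb
  have b2 := imCLM.hasFDerivAt.comp_hasDerivAt s hb
  refine ((a1.mul b1).add (a2.mul b2)).congr_deriv ?_
  simp only [ip, Function.comp, reCLM_apply, imCLM_apply]
  ring

theorem nsq (a : ℂ) : ‖a‖ ^ 2 = ip a a := by
  rw [Complex.sq_norm, normSq_apply]; rfl

def F1 (g : ℂ → ℂ) (Ψ₁ : ℝ → ℝ) (e y : ℂ) : ℝ :=
  Ψ₁ (‖g y‖ ^ 2) * (2 * ip (deriv g y * e) (g y))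

def F2 (g : ℂ → ℂ) (Ψ₁ Ψ₂ : ℝ → ℝ) (e y : ℂ) : ℝ :=
  Ψ₂ (‖g y‖ ^ 2) * (2 * ip (deriv g y * e) (g y)) ^ 2 + Ψ₁ (‖g y‖ ^ 2) *
    (2 * (ip (deriv (deriv g) y * e * e) (g y) + ip (deriv g y * e) (deriv g y * e)))

theorem add_eq (g : ℂ → ℂ) (Ψ₁ Ψ₂ : ℝ → ℝ) (y : ℂ) : F2 g Ψ₁ Ψ₂ 1 y + F2 g Ψ₁ Ψ₂ I y =
    4 * ‖deriv g y‖ ^ 2 * (‖g y‖ ^ 2 * Ψ₂ (‖g y‖ ^ 2) + Ψ₁ (‖g y‖ ^ 2)) := by
  unfold F2
  generalize Ψ₂ (‖g y‖ ^ 2) = p
  generalize Ψ₁ (‖g y‖ ^ 2) = q
  rw [nsq, nsq]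
  simp only [ip, mul_re, mul_im, I_re, I_im, one_re, one_im]
  ring

variable {r : ℝ} {g : ℂ → ℂ} {Ψ Ψ₁ Ψ₂ : ℝ → ℝ}

theorem line (hg : AnalyticOnNhd ℂ g (Strip r))
    (hΨ : ∀ v, 0 ≤ v → HasDerivAt Ψ (Ψ₁ v) v ∧ HasDerivAt Ψ₁ (Ψ₂ v) v) {z e : ℂ} {s : ℝ}
    (hs : z + s * e ∈ Strip r) :
    HasDerivAt (fun σ : ℝ => Ψ (‖g (z + σ * e)‖ ^ 2)) (F1 g Ψ₁ e (z + s * e)) s ∧
    HasDerivAt (fun σ : ℝ => F1 g Ψ₁ e (z + σ * e)) (F2 g Ψ₁ Ψ₂ e (z + s * e)) s := by
  have g0 := dl (hg _ hs).differentiableAt.hasDerivAt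
  have g1 := (dl (hg.deriv _ hs).differentiableAt.hasDerivAt).mul_const e
  have v : HasDerivAt (fun σ : ℝ => ‖g (z + σ * e)‖ ^ 2)
      (2 * ip (deriv g (z + s * e) * e) (g (z + s * e))) s := by
    simp only [nsq]
    refine (dip g0 g0).congr_deriv ?_
    simp only [ip]; ring
  obtain ⟨p, q⟩ := hΨ _ (sq_nonneg ‖g (z + s * e)‖)
  refine ⟨p.comp s v, ?_⟩
  refine ((q.comp s v).mul ((dip g1 g0).const_mul 2)).congr_deriv ?_
  simp only [F2, Function.comp]
  ring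

theorem cont (hg : AnalyticOnNhd ℂ g (Strip r))
    (hΨ : ∀ v, 0 ≤ v → HasDerivAt Ψ (Ψ₁ v) v ∧ HasDerivAt Ψ₁ (Ψ₂ v) v)
    (h2 : ContinuousOn Ψ₂ (Ici 0)) (e : ℂ) :
    ContinuousOn (fun y => Ψ (‖g y‖ ^ 2)) (Strip r) ∧ ContinuousOn (F2 g Ψ₁ Ψ₂ e) (Strip r) := by
  have g0 := hg.continuousOn
  have g1 := hg.deriv.continuousOn
  have g2 := hg.deriv.deriv.continuousOn
  have v : ContinuousOn (fun y => ‖g y‖ ^ 2) (Strip r) := g0.norm.pow 2
  have m : MapsTo (fun y => ‖g y‖ ^ 2) (Strip r) (Ici 0) := fun y _ => sq_nonneg ‖g y‖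
  have c0 : ContinuousOn Ψ (Ici 0) := fun v hv => (hΨ v hv).1.continuousAt.continuousWithinAt
  have c1 : ContinuousOn Ψ₁ (Ici 0) := fun v hv => (hΨ v hv).2.continuousAt.continuousWithinAt
  have ci : ∀ a b : ℂ → ℂ, ContinuousOn a (Strip r) → ContinuousOn b (Strip r) →
      ContinuousOn (fun y => ip (a y) (b y)) (Strip r) := fun a b ha hb =>
    ((continuous_re.comp_continuousOn ha).mul (continuous_re.comp_continuousOn hb)).add
      ((continuous_im.comp_continuousOn ha).mul (continuous_im.comp_continuousOn hb))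
  have e1 := g1.mul (continuousOn_const (c := e))
  have e2 := (g2.mul (continuousOn_const (c := e))).mul (continuousOn_const (c := e))
  exact ⟨c0.comp v m, ((h2.comp v m).mul ((continuousOn_const.mul (ci _ _ e1 g0)).pow 2)).add
    ((c1.comp v m).mul (continuousOn_const.mul ((ci _ _ e2 g0).add (ci _ _ e1 e1))))⟩

end GreenA

open GreenA in
/-- **GREEN** -/
theorem green : S_GREEN := by
  intro r T g Q Ψ Ψ₁ Ψ₂ C T0 Tr hΨ h2
  have hg : AnalyticOnNhd ℂ g (Strip r) := C.gq.dg.analyticOnNhd (opn r)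
  have mem : ∀ x t : ℝ, t ∈ Icc 0 T → (x + t * I : ℂ) ∈ Strip r := by
    intro x t ht
    show |(x + t * I : ℂ).im| < r
    simp only [add_im, ofReal_im, mul_im, ofReal_re, I_im, I_re, mul_one, mul_zero, add_zero,
      zero_add]
    rw [abs_of_nonneg ht.1]; linarith [ht.2]
  have cc : ∀ f : ℂ → ℝ, ContinuousOn f (Strip r) →
      ContinuousOn (fun q : ℝ × ℝ => f (q.1 + q.2 * I)) (univ ×ˢ Icc 0 T) := fun f hf =>
    hf.comp (by fun_prop) fun q hq => mem q.1 q.2 hq.2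
  have cv : ∀ f : ℂ → ℝ, ContinuousOn f (Strip r) → ∀ x : ℝ,
      ContinuousOn (fun t : ℝ => (T - t) * f (x + t * I)) (uIcc 0 T) := by
    intro f hf x
    rw [uIcc_of_le T0]
    exact (continuousOn_const.sub continuousOn_id).mul
      (hf.comp (by fun_prop) fun t ht => mem x t ht)
  have ch : ∀ f : ℂ → ℝ, ContinuousOn f (Strip r) → ∀ t ∈ Icc 0 T,
      Continuous fun x : ℝ => f (x + t * I) := fun f hf t ht =>
    hf.comp_continuous (by fun_prop) fun x => mem x t ht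
  have z0 : (0 : ℝ) ∈ Icc 0 T := ⟨le_rfl, T0⟩
  -- the normal derivative vanishes on the real line
  have re1 : ∀ x : ℝ, (deriv g x).im = 0 := by
    intro x
    have m : (0 : ℂ) + x * 1 ∈ Strip r := by simpa using mem x 0 z0
    have d := imCLM.hasFDerivAt.comp_hasDerivAt x (dl (hg _ m).differentiableAt.hasDerivAt)
    have e : (imCLM ∘ fun σ : ℝ => g (0 + σ * 1)) = fun _ => (0 : ℝ) := by
      funext σ; simpa using C.re σ
    rw [e] at d
    simpa using d.unique (hasDerivAt_const x 0)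
  have ver : ∀ x : ℝ, ∫ t in (0 : ℝ)..T, (T - t) * F2 g Ψ₁ Ψ₂ I (x + t * I) =
      Ψ (‖g (x + T * I)‖ ^ 2) - Ψ (‖g x‖ ^ 2) := by
    intro x
    have := intervalIntegral.integral_eq_sub_of_hasDerivAt
      (f := fun t : ℝ => (T - t) * F1 g Ψ₁ I (x + t * I) + Ψ (‖g (x + t * I)‖ ^ 2))
      (f' := fun t : ℝ => (T - t) * F2 g Ψ₁ Ψ₂ I (x + t * I)) (a := 0) (b := T) (by
        intro t ht
        rw [uIcc_of_le T0] at ht
        obtain ⟨p, q⟩ := line hg hΨ (mem x t ht)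
        refine ((((hasDerivAt_id t).const_sub T).mul q).add p).congr_deriv ?_
        simp only [id]; ring) (cv _ (cont hg hΨ h2 I).2 x).intervalIntegrable
    rw [this]
    simp [F1, ip, re1 x, C.re x]
  have per1 : ∀ y ∈ Strip r, deriv g (y + 1) = deriv g y := by
    intro y hy
    rw [← deriv_comp_add_const]
    exact EventuallyEq.deriv_eq (by filter_upwards [(opn r).mem_nhds hy] with w hw using C.per w hw)
  have hor : ∀ t ∈ Icc 0 T, ∫ x in (0 : ℝ)..1, (T - t) * F2 g Ψ₁ Ψ₂ 1 (x + t * I) = 0 := by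
    intro t ht
    have e : ∀ x : ℝ, (t * I + x * 1 : ℂ) = x + t * I := fun x => by ring
    have := intervalIntegral.integral_eq_sub_of_hasDerivAt
      (f := fun x : ℝ => F1 g Ψ₁ 1 (x + t * I))
      (f' := fun x : ℝ => F2 g Ψ₁ Ψ₂ 1 (x + t * I)) (a := 0) (b := 1) (by
        intro x _
        have := (line hg hΨ (z := t * I) (e := 1) (s := x) (e x ▸ mem x t ht)).2
        simpa only [e] using this) ((ch _ (cont hg hΨ h2 1).2 t ht).intervalIntegrable _ _)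
    rw [intervalIntegral.integral_const_mul, this]
    have e1 : ((1 : ℝ) + t * I : ℂ) = ((0 : ℝ) + t * I) + 1 := by push_cast; ring
    simp only [F1]
    rw [e1, C.per _ (mem 0 t ht), per1 _ (mem 0 t ht), sub_self, mul_zero]
  have hi : Integrable (Function.uncurry fun x t : ℝ => (T - t) * F2 g Ψ₁ Ψ₂ 1 (x + t * I))
      ((volume.restrict (uIoc (0 : ℝ) 1)).prod (volume.restrict (Ioc 0 T))) := by
    rw [Measure.prod_restrict, uIoc_of_le zero_le_one]
    refine IntegrableOn.mono_set (t := Icc (0 : ℝ) 1 ×ˢ Icc 0 T) ?_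
      (prod_mono Ioc_subset_Icc_self Ioc_subset_Icc_self)
    refine ContinuousOn.integrableOn_compact (isCompact_Icc.prod isCompact_Icc) ?_
    exact ((continuousOn_const.sub continuousOn_snd).mul (cc _ (cont hg hΨ h2 1).2)).mono
      (prod_mono (subset_univ _) subset_rfl)
  have sw : ∫ x in (0 : ℝ)..1, ∫ t in (0 : ℝ)..T, (T - t) * F2 g Ψ₁ Ψ₂ 1 (x + t * I) = 0 := by
    simp_rw [intervalIntegral.integral_of_le T0]
    rw [intervalIntegral_integral_swap hi]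
    rw [setIntegral_congr_fun measurableSet_Ioc (g := fun _ => 0)
      fun t ht => hor t (Ioc_subset_Icc_self ht)]
    simp
  have i1 : IntervalIntegrable (fun x : ℝ => ∫ t in (0 : ℝ)..T,
      (T - t) * F2 g Ψ₁ Ψ₂ 1 (x + t * I)) volume 0 1 := by
    simp_rw [intervalIntegral.integral_of_le T0]
    exact intervalIntegrable_iff.2 hi.integral_prod_left
  have iT := (ch _ (cont hg hΨ h2 1).1 T ⟨T0, le_rfl⟩).intervalIntegrable (μ := volume) 0 1
  have i0 := (ch _ (cont hg hΨ h2 1).1 0 z0).intervalIntegrable (μ := volume) 0 1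
  simp only [ofReal_zero, zero_mul, add_zero] at i0
  have ad := intervalIntegral.integral_add i1 (iT.sub i0)
  rw [sw, zero_add] at ad
  rw [← intervalIntegral.integral_sub iT i0, ← ad]
  refine intervalIntegral.integral_congr fun x _ => ?_
  show _ = _ + (_ - _)
  rw [← ver x, ← intervalIntegral.integral_add (cv _ (cont hg hΨ h2 1).2 x).intervalIntegrable
    (cv _ (cont hg hΨ h2 I).2 x).intervalIntegrable]
  refine intervalIntegral.integral_congr fun t _ => ?_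
  show _ = _ + _
  rw [← mul_add, add_eq]

end Vale.Agent.P097F.V
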