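import Vale.Agent.P097F.V.Defs

/-!
# P097F.V, row 8407: the energy of one forced level
-/

set_option linter.all false

noncomputable section

namespace Vale.Agent.P097F.V

open Filter Topology Set Metric MeasureTheory Complex
open Vale.Agent.P097T (Strip)
open Vale.Agent.P097M (GQ Gs)

theorem swap1 {f : ℝ → ℝ → ℝ} (h : Continuous (Function.uncurry f)) (a b : ℝ) {c d : ℝ}
    (e : c ≤ d) : ∫ x in a..b, ∫ t in c..d, f x t = ∫ t in c..d, ∫ x in a..b, f x t := by
  simp only [intervalIntegral.integral_of_le e]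
  refine intervalIntegral_integral_swap ?_
  rw [Measure.prod_restrict]
  exact (h.continuousOn.integrableOn_compact (isCompact_uIcc.prod isCompact_Icc)).mono_set
    (prod_mono uIoc_subset_uIcc Ioc_subset_Icc_self)

theorem Den.sl {f : ℝ → ℝ → ℝ} (h : Den f) (x : ℝ) : Continuous (f x) :=
  h.cn.comp (f := fun t => (x, t)) (by fun_prop)

theorem Den.par {f : ℝ → ℝ → ℝ} (h : Den f) (a b : ℝ) :
    Continuous fun x => ∫ t in a..b, f x t :=
  intervalIntegral.continuous_parametric_intervalIntegral_of_continuous' h.cn a b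

theorem Den.par' {f : ℝ → ℝ → ℝ} (h : Den f) (a b : ℝ) :
    Continuous fun t => ∫ x in a..b, f x t :=
  intervalIntegral.continuous_parametric_intervalIntegral_of_continuous'
    (f := fun t x => f x t) (h.cn.comp continuous_swap) a b

theorem one (hC : S_CHD) (hA : S_AVG) : S_ONE := by
  intro c R c0 R1 cR
  have s0 : 0 < √c := Real.sqrt_pos.2 c0
  refine ⟨c ^ 2 / (800 * R ^ 2), 10 / (c * √c), 28800 * R / c ^ 3, by positivity, by positivity,
    fun r T u d g Q w χ G P u0 d0 hΛ hr hT ⟨B, vB, hB⟩ => ?_⟩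
  set k : ℝ := √c / u with hk
  have k0 : 0 < k := by positivity
  have k2 : k ^ 2 = c / u ^ 2 := by rw [hk, div_pow, Real.sq_sqrt c0.le]
  set ρ : ℝ := c * d / 5 with hρ
  have ρ0 : 0 < ρ := by positivity
  have R0 : 0 < R := by linarith
  have e1 : ρ ≤ d / (2 * R) := by
    rw [le_div_iff₀ (by positivity), hρ]
    nlinarith
  have e2 : d / (2 * R) ≤ R * d := by
    rw [div_le_iff₀ (by positivity)]
    nlinarith [mul_pos R0 d0, mul_le_mul R1 R1 zero_le_one R0.le]
  have e3 : d / R = 2 * (d / (2 * R)) := by field_simp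
  have e4 : 2 / k ≤ ρ := by
    rw [div_mul_eq_mul_div, div_le_iff₀ (by positivity)] at hΛ
    rw [div_le_iff₀ k0, hρ, hk, div_mul_div_comm, le_div_iff₀ (by positivity)]
    linarith
  have e5 : 0 < d / (2 * R) := by positivity
  have Rd := mul_pos R0 d0
  have D : Den fun x t => w x t + k ^ 2 / 72 * χ x t :=
    ⟨P.dw.cn.add (continuous_const.mul P.dχ.cn),
      fun x t => add_nonneg (P.dw.nn x t) (mul_nonneg (by positivity) (P.dχ.nn x t)),
      fun x t => by rw [P.dw.per, P.dχ.per]⟩
  have le : r - 2 * R * d ≤ r - d / (2 * R) := by linarith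
  have A := hA _ B (r - 2 * R * d) (r - d / (2 * R)) (R * d) ρ (k ^ 2 / 72 * ρ) D le ρ0
    (e1.trans e2) (by positivity) vB fun s hs => by
      obtain ⟨y, l, l2, y1, y2, y3, hy⟩ := hB s hs
      refine ⟨y.re, y.im, l, y1, l2, by linarith, by linarith, fun ξ hξ => ?_⟩
      have ne : ‖(l : ℂ) + I‖ ≤ 3 := (norm_add_le _ _).trans (by
        rw [norm_real, norm_I, Real.norm_eq_abs]
        linarith)
      have pt : ∀ σ : ℝ, y + ξ + σ * (l + I) =
          ((y.re + ξ + l * σ : ℝ) : ℂ) + ((y.im + σ : ℝ) : ℂ) * I := fun σ => by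
        apply Complex.ext <;> simp
        ring
      have ht : ∀ σ ∈ Icc (-ρ) ρ, y.im + σ ∈ Icc 0 T ∧ y.im + σ < r := fun σ hσ =>
        ⟨⟨by linarith [hσ.1], by linarith [hσ.2]⟩, by linarith [hσ.2]⟩
      refine le_trans (mul_le_mul_of_nonneg_left (by linarith) (by positivity))
        (hC g Q (y + ξ) (l + I) ρ k (k ^ 2 / 72) _ k0 ρ0 (by positivity) ne (fun σ hσ => ?_)
          (D.cn.comp (f := fun σ => (y.re + ξ + l * σ, y.im + σ)) (by fun_prop)).continuousOn
          (fun σ _ => D.nn _ _) fun σ hσ h => ?_)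
      · have m : y + ξ + σ * (l + I) ∈ Strip r := by
          show |(y + ξ + σ * (l + I)).im| < r
          have : (y + ξ + σ * (l + I)).im = y.im + σ := by simp
          rw [this, abs_of_nonneg (ht σ hσ).1.1]
          exact (ht σ hσ).2
        have o : IsOpen (Strip r) := isOpen_lt (by fun_prop) continuous_const
        refine ⟨G.dg.analyticAt (o.mem_nhds m), G.ode _ m, ?_⟩
        have b : y + ξ + σ * (l + I) ∈ ball y (c * d) := by
          rw [mem_ball, dist_eq_norm, add_assoc, add_sub_cancel_left]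
          refine (norm_add_le _ _).trans_lt ?_
          rw [norm_mul, norm_real, norm_real, Real.norm_eq_abs, Real.norm_eq_abs]
          have a1 : |ξ| ≤ ρ := abs_le.2 hξ
          have a2 : |σ| ≤ ρ := abs_le.2 hσ
          have a3 := mul_le_mul a2 ne (norm_nonneg _) ρ0.le
          linarith
        rw [k2, div_le_iff₀ (by positivity)]
        exact hy _ b
      · rw [pt] at h
        exact P.low _ _ k (ht σ hσ).1 k0.le h
  have i1 : ∀ x, ∫ t in (r - 2 * R * d)..(r - d / (2 * R)), (w x t + k ^ 2 / 72 * χ x t) =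
      (∫ t in (r - 2 * R * d)..(r - d / (2 * R)), w x t) +
        k ^ 2 / 72 * ∫ t in (r - 2 * R * d)..(r - d / (2 * R)), χ x t := fun x => by
    rw [intervalIntegral.integral_add ((P.dw.sl x).intervalIntegrable _ _)
      (((P.dχ.sl x).intervalIntegrable _ _).const_mul _),
      intervalIntegral.integral_const_mul]
  simp only [i1] at A
  rw [intervalIntegral.integral_add ((P.dw.par _ _).intervalIntegrable _ _)
    (((P.dχ.par _ _).intervalIntegrable _ _).const_mul _),
    intervalIntegral.integral_const_mul, swap1 P.dχ.cn _ _ le] at A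
  have i2 := intervalIntegral.integral_mono_on (μ := volume) le
    ((P.dχ.par' 0 1).intervalIntegrable _ _)
    (intervalIntegrable_const (c := c ^ 2 / (800 * R ^ 2)))
    fun t ht => P.mean t ⟨by linarith [ht.1], by linarith [ht.2]⟩
  rw [intervalIntegral.integral_const, smul_eq_mul] at i2
  generalize (∫ t in (r - 2 * R * d)..(r - d / (2 * R)), ∫ x in (0 : ℝ)..1, χ x t) = X at A i2
  generalize (∫ x in (0 : ℝ)..1, ∫ t in (r - 2 * R * d)..(r - d / (2 * R)), w x t) = W at A ⊢
  have i3 : X ≤ 2 * R * d * (c ^ 2 / (800 * R ^ 2)) :=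
    i2.trans (mul_le_mul_of_nonneg_right (by linarith) (by positivity))
  have i4 : 8 * (R * d) * (k ^ 2 / 72 * X) ≤ k ^ 2 / 72 * (c ^ 2 * d ^ 2 / 50) := by
    calc _ ≤ 8 * (R * d) * (k ^ 2 / 72 * (2 * R * d * (c ^ 2 / (800 * R ^ 2)))) := by gcongr
      _ = _ := by field_simp; norm_num
  have i5 : k ^ 2 / 72 * (c ^ 2 * d ^ 2 / 50) ≤ 8 * (R * d) * W := by
    have : ρ * (k ^ 2 / 72 * ρ) = 2 * (k ^ 2 / 72 * (c ^ 2 * d ^ 2 / 50)) := by
      rw [hρ]
      ring
    nlinarith
  calc _ = 3600 / c ^ 3 * (k ^ 2 / 72 * (c ^ 2 * d ^ 2 / 50)) := by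
        rw [k2]
        field_simp
        norm_num
    _ ≤ 3600 / c ^ 3 * (8 * (R * d) * W) := by gcongr
    _ = _ := by ring

end Vale.Agent.P097F.V
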