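import Vale.Agent.P097F.V.Defs

/-!
# P097F.V: the potentials (row 8403)
-/

set_option linter.all false

noncomputable section

namespace Vale.Agent.P097F.V

open Filter Topology Set Metric MeasureTheory Complex
open Vale.Agent.P097T (Strip)

namespace PotA

theorem so (r : ℝ) : IsOpen (Strip r) :=
  isOpen_lt (continuous_abs.comp continuous_im) continuous_const

theorem dper {r : ℝ} {g Q : ℂ → ℂ} (C : CG r g Q) {y : ℂ} (hy : y ∈ Strip r) :
    deriv g (y + 1) = deriv g y := by
  have : (fun z => g (z + 1)) =ᶠ[𝓝 y] g := eventually_of_mem ((so r).mem_nhds hy) C.per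
  rw [← this.deriv_eq, deriv_comp_add_const]

theorem mem {r T t : ℝ} (Tr : T < r) (ht : t ∈ Icc 0 T) (x : ℝ) : (x + t * I : ℂ) ∈ Strip r := by
  show |(x + t * I : ℂ).im| < r
  simp only [add_im, ofReal_im, mul_im, ofReal_re, I_im, I_re, mul_one, mul_zero, add_zero,
    zero_add]
  rw [abs_of_nonneg ht.1]
  exact ht.2.trans_lt Tr

/-- the clamped height -/
def cl (T t : ℝ) : ℝ := max 0 (min t T)

theorem cl_mem {T : ℝ} (T0 : 0 ≤ T) (t : ℝ) : cl T t ∈ Icc 0 T :=
  ⟨le_max_left _ _, max_le T0 (min_le_right _ _)⟩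

theorem cl_eq {T t : ℝ} (ht : t ∈ Icc 0 T) : cl T t = t := by
  rw [cl, min_eq_left ht.2, max_eq_right ht.1]

theorem den {r T : ℝ} {F : ℂ → ℝ} (T0 : 0 ≤ T) (Tr : T < r) (hc : ContinuousOn F (Strip r))
    (hp : ∀ y ∈ Strip r, F (y + 1) = F y) (hn : ∀ x t : ℝ, t ∈ Icc 0 T → 0 ≤ F (x + t * I)) :
    Den fun x t => F (x + cl T t * I) := by
  refine ⟨hc.comp_continuous (f := fun q : ℝ × ℝ => (q.1 + cl T q.2 * I : ℂ))
    (by unfold cl; fun_prop) fun q => mem Tr (cl_mem T0 _) _,
    fun x t => hn _ _ (cl_mem T0 _), fun x t => ?_⟩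
  rw [← hp _ (mem Tr (cl_mem T0 t) x)]
  congr 1
  push_cast
  ring

theorem cx {r t : ℝ} {F : ℂ → ℝ} (t0 : 0 ≤ t) (tr : t < r) (hc : ContinuousOn F (Strip r)) :
    IntervalIntegrable (fun x : ℝ => F (x + t * I)) volume 0 1 :=
  (hc.comp_continuous (f := fun x : ℝ => (x + t * I : ℂ)) (by fun_prop)
    fun x => mem tr ⟨t0, le_rfl⟩ x).intervalIntegrable _ _

theorem d0 {E v : ℝ} (E0 : 0 < E) (v0 : 0 ≤ v) :
    HasDerivAt (fun v => Real.log (1 + E * v)) (E / (1 + E * v)) v := by
  have h : HasDerivAt (fun v => 1 + E * v) E v := by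
    simpa using ((hasDerivAt_id v).const_mul E).const_add 1
  exact h.log (by positivity)

theorem d1 {E v : ℝ} (E0 : 0 < E) (v0 : 0 ≤ v) :
    HasDerivAt (fun v => E / (1 + E * v)) (-E ^ 2 / (1 + E * v) ^ 2) v := by
  have h : HasDerivAt (fun v => 1 + E * v) E v := by
    simpa using ((hasDerivAt_id v).const_mul E).const_add 1
  exact ((hasDerivAt_const v E).fun_div h (by positivity)).congr_deriv (by ring)

theorem core (hG : S_GREEN) {r T E L D a : ℝ} {g Q : ℂ → ℂ} (C : CG r g Q) (T0 : 0 ≤ T)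
    (Tr : T < r) (E0 : 0 < E) (D0 : 0 < D) (hD : D + 1 ≤ L)
    (hu : ∀ x t : ℝ, t ∈ Icc 0 T → Real.log (1 + E * ‖g (x + t * I)‖ ^ 2) ≤ L)
    (hl : ∀ x : ℝ, a ≤ Real.log (1 + E * ‖g x‖ ^ 2)) :
    ∃ w χ, Pot g T ((L - a) / D) w χ ∧
      ∫ x in (0 : ℝ)..1, ∫ t in (0 : ℝ)..T, (T - t) * w x t ≤ L ^ 2 := by
  have cg : ContinuousOn g (Strip r) := C.gq.dg.continuousOn
  have cd : ContinuousOn (deriv g) (Strip r) := (C.gq.dg.deriv (so r)).continuousOn
  have nz : ∀ y : ℂ, 1 + E * ‖g y‖ ^ 2 ≠ 0 := fun y => by positivity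
  have l0 : ∀ v, 0 ≤ v → 0 ≤ Real.log (1 + E * v) := fun v v0 =>
    Real.log_nonneg (le_add_of_nonneg_right (by positivity))
  have c1 : ContinuousOn (fun y => 1 + E * ‖g y‖ ^ 2) (Strip r) :=
    continuousOn_const.add (continuousOn_const.mul (cg.norm.pow 2))
  have cL : ContinuousOn (fun y => Real.log (1 + E * ‖g y‖ ^ 2)) (Strip r) :=
    c1.log fun y _ => nz y
  have cv : ContinuousOn (fun v : ℝ => 1 + E * v) (Ici 0) := by fun_prop
  have nv : ∀ v ∈ Ici (0 : ℝ), 1 + E * v ≠ 0 := fun v (v0 : 0 ≤ v) => by positivity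
  set W : ℂ → ℝ := fun y => 4 * ‖deriv g y‖ ^ 2 *
    ((2 * ‖g y‖ ^ 2 * E ^ 2 + 2 * Real.log (1 + E * ‖g y‖ ^ 2) * E) / (1 + E * ‖g y‖ ^ 2) ^ 2)
    with hW
  have W0 : ∀ y, 0 ≤ W y := fun y => by
    have := l0 (‖g y‖ ^ 2) (by positivity)
    positivity
  have cW : ContinuousOn W (Strip r) :=
    (continuousOn_const.mul (cd.norm.pow 2)).mul
      ((((continuousOn_const.mul (cg.norm.pow 2)).mul continuousOn_const).add
        ((continuousOn_const.mul cL).mul continuousOn_const)).div (c1.pow 2)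
          fun y _ => pow_ne_zero 2 (nz y))
  refine ⟨fun x t => W (x + cl T t * I),
    fun x t => (fun y => (L - Real.log (1 + E * ‖g y‖ ^ 2)) / D) (x + cl T t * I),
    ⟨den T0 Tr cW (fun y hy => by simp only [hW, C.per y hy, dper C hy]) fun x t _ => W0 _,
      den (F := fun y => (L - Real.log (1 + E * ‖g y‖ ^ 2)) / D) T0 Tr
        ((continuousOn_const.sub cL).div_const D) (fun y hy => by simp only [C.per y hy])
        fun x t ht => div_nonneg (sub_nonneg.2 (hu x t ht)) D0.le, fun t ht => ?_,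
      fun x t k ht k0 hk => ?_⟩, ?_⟩
  · have tr := ht.2.trans_lt Tr
    have h := hG r t g Q _ _ _ C ht.1 tr (fun v v0 => ⟨d0 E0 v0, d1 E0 v0⟩)
      (continuousOn_const.div (cv.pow 2) fun v hv => pow_ne_zero 2 (nv v hv))
    have h1 : 0 ≤ (∫ x in (0 : ℝ)..1, Real.log (1 + E * ‖g (x + t * I)‖ ^ 2)) -
        ∫ x in (0 : ℝ)..1, Real.log (1 + E * ‖g x‖ ^ 2) := by
      rw [← h]
      refine intervalIntegral.integral_nonneg zero_le_one fun x _ =>
        intervalIntegral.integral_nonneg ht.1 fun s hs => mul_nonneg (sub_nonneg.2 hs.2)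
          (mul_nonneg (by positivity) ?_)
      have := nz (x + s * I)
      rw [show ∀ v : ℝ, 1 + E * v ≠ 0 → v * (-E ^ 2 / (1 + E * v) ^ 2) + E / (1 + E * v) =
        E / (1 + E * v) ^ 2 from fun v hv => by field_simp; ring]
      · positivity
      · exact this
    have i0 := cx le_rfl C.gq.rpos cL
    simp only [ofReal_zero, zero_mul, add_zero] at i0
    have h2 := intervalIntegral.integral_mono_on zero_le_one
      (intervalIntegrable_const (c := a)) i0 fun x _ => hl x
    simp only [cl_eq ht]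
    rw [intervalIntegral.integral_div, intervalIntegral.integral_sub intervalIntegrable_const
      (cx ht.1 tr cL)]
    simp only [intervalIntegral.integral_const, sub_zero, smul_eq_mul, one_mul] at h2 ⊢
    exact div_le_div_of_nonneg_right (by linarith) D0.le
  · simp only [cl_eq ht]
    have h0 := div_nonneg (sub_nonneg.2 (hu x t ht)) D0.le
    set y : ℂ := x + t * I
    have k2 : 0 ≤ k ^ 2 / 72 := by positivity
    rcases le_total (E * ‖g y‖ ^ 2) 1 with h | h
    · have h1 : Real.log (1 + E * ‖g y‖ ^ 2) ≤ 1 := by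
        have := Real.log_le_sub_one_of_pos (show 0 < 1 + E * ‖g y‖ ^ 2 by positivity)
        linarith
      have h2 : 1 ≤ (L - Real.log (1 + E * ‖g y‖ ^ 2)) / D := (one_le_div D0).2 (by linarith)
      nlinarith [W0 y, mul_le_mul_of_nonneg_left h2 k2]
    · have h1 : (k * ‖g y‖) ^ 2 ≤ (12 * ‖deriv g y‖) ^ 2 :=
        pow_le_pow_left₀ (by positivity) hk 2
      have h2 := l0 (‖g y‖ ^ 2) (by positivity)
      have h3 : k ^ 2 / 72 ≤ W y := by
        rw [hW]
        dsimp only
        rw [← mul_div_assoc, le_div_iff₀ (by positivity)]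
        rw [mul_pow, mul_pow] at h1
        generalize ‖g y‖ ^ 2 = v at *
        generalize Real.log (1 + E * v) = l at *
        have h4 : (1 + E * v) ^ 2 ≤ (2 * (E * v)) ^ 2 :=
          pow_le_pow_left₀ (by linarith) (by linarith) 2
        have v0 : 0 < v := (mul_pos_iff_of_pos_left E0).1 (lt_of_lt_of_le zero_lt_one h)
        have h5 := mul_le_mul_of_nonneg_left h4 k2
        have h6 := mul_le_mul_of_nonneg_right h1 (show 0 ≤ E ^ 2 * v by positivity)
        have h7 : 0 ≤ ‖deriv g y‖ ^ 2 * (l * E) := by positivity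
        nlinarith
      nlinarith [mul_nonneg k2 h0]
  · have h := hG r T g Q (fun v => Real.log (1 + E * v) ^ 2)
      (fun v => 2 * Real.log (1 + E * v) * (E / (1 + E * v)))
      (fun v => 2 * (E / (1 + E * v)) * (E / (1 + E * v)) +
        2 * Real.log (1 + E * v) * (-E ^ 2 / (1 + E * v) ^ 2)) C T0 Tr
      (fun v v0 => ⟨by simpa using (d0 E0 v0).fun_pow 2,
        ((d0 E0 v0).const_mul 2).mul (d1 E0 v0)⟩)
      (((continuousOn_const.mul (continuousOn_const.div cv nv)).mul
        (continuousOn_const.div cv nv)).add ((continuousOn_const.mul (cv.log nv)).mul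
          (continuousOn_const.div (cv.pow 2) fun v hv => pow_ne_zero 2 (nv v hv))))
    have h1 := intervalIntegral.integral_mono_on zero_le_one
      (cx (F := fun y => Real.log (1 + E * ‖g y‖ ^ 2) ^ 2) T0 Tr (cL.pow 2))
      (intervalIntegrable_const (c := L ^ 2)) fun x _ =>
        pow_le_pow_left₀ (l0 _ (by positivity)) (hu x T ⟨T0, le_rfl⟩) 2
    have h2 : 0 ≤ ∫ x in (0 : ℝ)..1, Real.log (1 + E * ‖g x‖ ^ 2) ^ 2 :=
      intervalIntegral.integral_nonneg zero_le_one fun x _ => sq_nonneg _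
    simp only [intervalIntegral.integral_const, sub_zero, smul_eq_mul, one_mul] at h1
    refine le_trans (le_of_eq ?_) (h.le.trans (by linarith))
    refine intervalIntegral.integral_congr fun x _ => intervalIntegral.integral_congr fun t ht => ?_
    rw [uIcc_of_le T0] at ht
    simp only [cl_eq ht, hW]
    have := nz (x + t * I)
    field_simp
    ring

theorem low {r : ℝ} {g Q : ℂ → ℂ} (C : CG r g Q) : ∃ m : ℝ, 0 < m ∧ ∀ x : ℝ, m ≤ ‖g x‖ := by
  have m0 : ∀ x : ℝ, (x : ℂ) ∈ Strip r := fun x => by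
    simpa using mem C.gq.rpos ⟨le_rfl, le_rfl⟩ x
  have c : Continuous fun x : ℝ => ‖g x‖ :=
    (C.gq.dg.continuousOn.comp_continuous continuous_ofReal m0).norm
  have p : Function.Periodic (fun x : ℝ => ‖g x‖) 1 := fun x => by
    simp only [ofReal_add, ofReal_one, C.per _ (m0 x)]
  obtain ⟨x₀, -, h⟩ := isCompact_Icc.exists_isMinOn (nonempty_Icc.2 (zero_le_one' ℝ))
    c.continuousOn
  refine ⟨‖g x₀‖, (C.pos x₀).trans_le (re_le_norm _), fun x => ?_⟩
  obtain ⟨z, hz, e⟩ := p.exists_mem_Ico₀ zero_lt_one x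
  exact (h (Ico_subset_Icc_self hz)).trans e.ge

end PotA

open PotA in
theorem pot (hG : S_GREEN) : S_POT := by
  intro r C₀ ε R g Q p C hb ε0 R1
  obtain ⟨m, m0, hm⟩ := low C
  have r0 := C.gq.rpos
  set A := |C₀| * (R / r) ^ p + 1 with hA
  have A0 : 0 < A := by positivity
  set c := 2 * (|Real.log A| + p + |Real.log m|) with hc
  have c0 : 0 ≤ c := by positivity
  set N := (2 * c + 1) / ε with hN
  have N0 : 0 < N := by positivity
  refine ⟨(N + c + 1) ^ 2, fun J T J1 T0 hT => ?_⟩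
  have J1' : (1 : ℝ) ≤ J := by exact_mod_cast J1
  have t0 : 0 < tk r J / R := by unfold tk; positivity
  have h := core hG (E := Real.exp (N * J)) (L := (N + c + 1) * J) (D := N * J) (a := (N - c) * J)
    C T0 (by linarith) (Real.exp_pos _) (by positivity) (by nlinarith) (fun x t ht => ?_)
    fun x => ?_
  · rw [show ((N + c + 1) * J - (N - c) * J) / (N * J) = ε by rw [hN]; field_simp; ring,
      mul_pow] at h
    exact h
  · have h1 := hb _ (mem (show T < r by linarith) ht x)
    simp only [add_im, ofReal_im, mul_im, ofReal_re, I_im, I_re, mul_one, mul_zero, add_zero,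
      zero_add, abs_of_nonneg ht.1] at h1
    have h2 : ‖g (x + t * I)‖ * (tk r J / R) ^ p ≤ |C₀| :=
      (mul_le_mul_of_nonneg_left (pow_le_pow_left₀ t0.le (by linarith [ht.2]) p)
        (norm_nonneg _)).trans (h1.trans (le_abs_self _))
    have h3 : ‖g (x + t * I)‖ ≤ A * (2 ^ J) ^ p := by
      rw [← le_div_iff₀ (by positivity)] at h2
      refine h2.trans ?_
      rw [show |C₀| / (tk r J / R) ^ p = |C₀| * (R / r) ^ p * (2 ^ J) ^ p by
        rw [mul_assoc, ← mul_pow, show R / r * 2 ^ J = (tk r J / R)⁻¹ by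
          rw [tk, one_div, inv_pow]; field_simp, inv_pow, div_eq_mul_inv]]
      exact mul_le_mul_of_nonneg_right (by linarith) (by positivity)
    have h4 : (2 : ℝ) ^ J ≤ Real.exp J := by
      rw [← Real.exp_one_pow]
      exact pow_le_pow_left₀ zero_le_two (by linarith [Real.add_one_le_exp 1]) J
    have h5 : ‖g (x + t * I)‖ ≤ Real.exp (c * J / 2) := by
      refine h3.trans ((mul_le_mul_of_nonneg_left (pow_le_pow_left₀ (by positivity) h4 p)
        A0.le).trans ?_)
      rw [← Real.exp_nat_mul, ← le_div_iff₀ (Real.exp_pos _), ← Real.exp_sub,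
        ← Real.log_le_iff_le_exp A0, hc]
      nlinarith [le_abs_self (Real.log A), abs_nonneg (Real.log A), abs_nonneg (Real.log m)]
    have h6 : Real.exp (N * J) * ‖g (x + t * I)‖ ^ 2 ≤ Real.exp ((N + c) * J) := by
      refine (mul_le_mul_of_nonneg_left (pow_le_pow_left₀ (norm_nonneg _) h5 2)
        (Real.exp_pos _).le).trans (le_of_eq ?_)
      rw [← Real.exp_nat_mul, ← Real.exp_add]
      congr 1
      push_cast
      ring
    have h7 : 1 ≤ Real.exp ((N + c) * J) := Real.one_le_exp (by positivity)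
    rw [Real.log_le_iff_le_exp (by positivity), show (N + c + 1) * (J : ℝ) = (N + c) * J + J by
      ring, Real.exp_add]
    nlinarith [Real.add_one_le_exp (J : ℝ)]
  · rw [Real.le_log_iff_exp_le (by positivity)]
    have h1 : Real.exp (-(c * J) / 2) ≤ ‖g x‖ := by
      refine le_trans ?_ (hm x)
      rw [← Real.le_log_iff_exp_le m0, hc]
      have : (0 : ℝ) ≤ p * J := by positivity
      nlinarith [neg_abs_le (Real.log m), abs_nonneg (Real.log A), abs_nonneg (Real.log m)]
    have h2 := mul_le_mul_of_nonneg_left (pow_le_pow_left₀ (Real.exp_pos _).le h1 2)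
      (Real.exp_pos (N * J)).le
    rw [← Real.exp_nat_mul, ← Real.exp_add, show N * J + (2 : ℕ) * (-(c * J) / 2) =
      (N - c) * (J : ℝ) by push_cast; ring] at h2
    linarith

end Vale.Agent.P097F.V
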