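import Vale.Agent.P097F.V.Defs

/-!
# P097F.V: the overlap of the layers (row SUM)
-/

set_option linter.all false

namespace Vale.Agent.P097F.V

open Filter Topology Set Metric MeasureTheory

namespace SumL

theorem geo {r M : ℝ} (hr : 0 < r) (M0 : 0 ≤ M) (S : Finset ℕ) (h : ∀ j ∈ S, tk r j ≤ M) :
    ∑ j ∈ S, tk r j ≤ 2 * M := by
  rcases S.eq_empty_or_nonempty with rfl | hS
  · simpa using M0
  have h1 : ∑ j ∈ S, (1 / 2 : ℝ) ^ j ≤ ∑ j ∈ Finset.Ico (S.min' hS) (S.max' hS + 1), (1 / 2) ^ j :=
    Finset.sum_le_sum_of_subset_of_nonneg (fun j hj => Finset.mem_Ico.2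
      ⟨S.min'_le j hj, Nat.lt_succ_of_le (S.le_max' j hj)⟩) fun _ _ _ => by positivity
  have h2 := h1.trans (geom_sum_Ico_le_of_lt_one (by norm_num) (by norm_num))
  have h3 := h _ (S.min'_mem hS)
  simp only [tk] at h3 ⊢
  rw [← Finset.mul_sum]
  rw [show (1 : ℝ) - 1 / 2 = 2⁻¹ by norm_num, div_inv_eq_mul] at h2
  linarith [mul_le_mul_of_nonneg_left h2 hr.le]

theorem tk_anti {r : ℝ} (hr : 0 < r) {i j : ℕ} (h : i ≤ j) : tk r j ≤ tk r i :=
  mul_le_mul_of_nonneg_left (pow_le_pow_of_le_one (by norm_num) (by norm_num) h) hr.le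

theorem tk_succ (r : ℝ) (j : ℕ) : tk r j = 2 * tk r (j + 1) := by simp only [tk]; ring

/-- one vertical line -/
theorem line {r R : ℝ} {f : ℝ → ℝ} {J : ℕ} {S : Finset ℕ} {d : ℕ → ℝ} (hr : 0 < r) (R1 : 1 ≤ R)
    (cf : Continuous f) (f0 : ∀ t, 0 ≤ f t)
    (h : ∀ j ∈ S, j ≤ J ∧ tk r (j + 1) < d j ∧ d j ≤ tk r j ∧ 2 * R * d j ≤ r) :
    ∑ j ∈ S, d j * ∫ t in (r - 2 * R * d j)..(r - d j / (2 * R)), f t ≤
      16 * R * ∫ t in (0 : ℝ)..(r - tk r J / (8 * R)), (r - tk r J / (8 * R) - t) * f t := by
  classical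
  have R0 : 0 < R := by linarith
  set e := tk r J / (8 * R) with he
  have e1 : 8 * R * e = tk r J := by rw [he]; field_simp
  have t0 : 0 < tk r J := by simp only [tk]; positivity
  have e0 : 0 < e := by positivity
  have T0 : 0 ≤ r - e := by
    have := tk_anti hr (Nat.zero_le J)
    simp only [tk, pow_zero, mul_one] at this e1
    nlinarith
  have k : ∀ j ∈ S, 2 * R * (d j / (2 * R)) = d j ∧ 2 * e ≤ d j / (2 * R) ∧
      d j / (2 * R) ≤ 2 * R * d j := fun j hj => by
    obtain ⟨h1, h2, -, -⟩ := h j hj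
    have := tk_anti hr (Nat.succ_le_succ h1)
    have := tk_succ r J
    refine ⟨by field_simp, by rw [le_div_iff₀ (by positivity)]; linarith, ?_⟩
    rw [div_le_iff₀ (by positivity)]
    nlinarith [mul_nonneg (show 0 ≤ d j by linarith) (show 0 ≤ R * R - 1 by nlinarith)]
  have i1 : IntegrableOn f (Ioc 0 (r - e)) := cf.integrableOn_Ioc
  have e2 : ∀ j ∈ S, d j * ∫ t in (r - 2 * R * d j)..(r - d j / (2 * R)), f t = ∫ t in Ioc 0 (r - e),
      d j * (Ioc (r - 2 * R * d j) (r - d j / (2 * R))).indicator f t := fun j hj => by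
    obtain ⟨-, k2, k3⟩ := k j hj
    rw [integral_const_mul, setIntegral_indicator measurableSet_Ioc, inter_eq_right.2
      (Ioc_subset_Ioc (by linarith [(h j hj).2.2.2]) (by linarith)),
      intervalIntegral.integral_of_le (by linarith)]
  have i2 : ∀ j ∈ S, Integrable (fun t => d j *
      (Ioc (r - 2 * R * d j) (r - d j / (2 * R))).indicator f t) (volume.restrict (Ioc 0 (r - e))) :=
    fun j _ => (i1.indicator measurableSet_Ioc).const_mul _
  rw [Finset.sum_congr rfl e2, ← integral_finsetSum _ i2, intervalIntegral.integral_of_le T0,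
    ← integral_const_mul]
  refine setIntegral_mono_on (integrable_finsetSum _ i2) (Continuous.integrableOn_Ioc (by fun_prop))
    measurableSet_Ioc fun t ht => ?_
  simp only [indicator, mul_ite, mul_zero]
  rw [← Finset.sum_filter, ← Finset.sum_mul, ← mul_assoc]
  refine mul_le_mul_of_nonneg_right ?_ (f0 t)
  set S' := S.filter fun j => t ∈ Ioc (r - 2 * R * d j) (r - d j / (2 * R))
  rcases S'.eq_empty_or_nonempty with e3 | ⟨i, hi⟩
  · rw [e3, Finset.sum_empty]
    exact mul_nonneg (by positivity) (by linarith [ht.2])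
  obtain ⟨hi1, hi2⟩ := Finset.mem_filter.1 hi
  have h1 : 2 * e ≤ r - t := by linarith [(k i hi1).2.1, hi2.2]
  have h2 := geo (M := 4 * R * (r - t)) hr (mul_nonneg (by positivity) (by linarith)) S'
    fun j hj => by
      obtain ⟨hj1, hj2⟩ := Finset.mem_filter.1 hj
      have := mul_le_mul_of_nonneg_left (show d j / (2 * R) ≤ r - t by linarith [hj2.2])
        (show 0 ≤ 2 * R by positivity)
      linarith [tk_succ r j, (h j hj1).2.1, (k j hj1).1]
  have h3 : ∑ j ∈ S', d j ≤ ∑ j ∈ S', tk r j :=
    Finset.sum_le_sum fun j hj => (h j (Finset.mem_filter.1 hj).1).2.2.1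
  nlinarith

end SumL

open SumL in
theorem sum : S_SUM := by
  intro r R w J S d hr R1 hw h
  have c1 : ∀ a b : ℝ, Continuous fun x => ∫ t in a..b, w x t := fun a b =>
    intervalIntegral.continuous_parametric_intervalIntegral_of_continuous' hw.cn a b
  have c2 : Continuous fun x => ∫ t in (0 : ℝ)..(r - tk r J / (8 * R)),
      (r - tk r J / (8 * R) - t) * w x t :=
    intervalIntegral.continuous_parametric_intervalIntegral_of_continuous'
      (f := fun x t => (r - tk r J / (8 * R) - t) * w x t)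
      (((continuous_const (y := r - tk r J / (8 * R))).sub continuous_snd).mul hw.cn) _ _
  simp only [← intervalIntegral.integral_const_mul (d _)]
  rw [← intervalIntegral.integral_const_mul (16 * R), ← intervalIntegral.integral_finsetSum]
  · refine intervalIntegral.integral_mono_on zero_le_one (Continuous.intervalIntegrable
      (continuous_finset_sum _ fun j _ => ?_) _ _)
      ((continuous_const.mul c2).intervalIntegrable _ _) fun x _ => ?_
    · simp only [intervalIntegral.integral_const_mul]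
      exact continuous_const.mul (c1 _ _)
    · simp only [intervalIntegral.integral_const_mul]
      exact line hr R1 (hw.cn.comp (Continuous.prodMk_right x)) (hw.nn x) h
  · intro j _
    simp only [intervalIntegral.integral_const_mul]
    exact (continuous_const.mul (c1 _ _)).intervalIntegrable _ _

end Vale.Agent.P097F.V
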