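import Vale.Agent.P097F.V.Defs

/-!
# P097F.V, row 8409: the sum over the forced levels
-/

set_option linter.all false

noncomputable section

namespace Vale.Agent.P097F.V

open Filter Topology Set Metric MeasureTheory Complex
open Vale.Agent.P097T (Strip)

theorem vs0 (hP : S_POT) (hO : S_ONE) (hS : S_SUM) : S_VS0 := by
  intro r C₀ c R g Q p G hg c0 R1 cR
  have r0 := G.gq.rpos
  obtain ⟨ε, Λ, K, ε0, K0, hO⟩ := hO c R c0 R1 cR
  obtain ⟨K', hP⟩ := hP r C₀ ε (8 * R) g Q p G hg ε0 (by linarith)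
  refine ⟨Λ, K * (16 * R * K'), fun J S u d J1 h => ?_⟩
  have t0 : ∀ k, 0 < tk r k := fun k => by unfold tk; positivity
  have t1 : ∀ i j, i ≤ j → tk r j ≤ tk r i := fun i j e =>
    mul_le_mul_of_nonneg_left (pow_le_pow_of_le_one (by norm_num) (by norm_num) e) r0.le
  have t2 : tk r J ≤ r := by simpa [tk] using t1 0 J (Nat.zero_le _)
  have t3 : tk r (J + 1) = tk r J / 2 := by unfold tk; ring
  obtain ⟨w, χ, P, hw⟩ := hP J (r - tk r J / (8 * R)) J1 (by
    have := div_le_self (t0 J).le (show 1 ≤ 8 * R by linarith)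
    linarith) le_rfl
  have h1 := hS r R w J S d r0 R1 P.dw fun j hj =>
    let ⟨a, _, _, b, e, f, _⟩ := h j hj; ⟨a, b, e, f⟩
  calc _ ≤ ∑ j ∈ S, K * (d j * ∫ x in (0 : ℝ)..1,
        ∫ t in (r - 2 * R * d j)..(r - d j / (2 * R)), w x t) := Finset.sum_le_sum fun j hj => by
        obtain ⟨a, u0, l, b, -, f, F⟩ := h j hj
        refine hO r _ _ _ g Q w χ G.gq P u0 ((t0 _).trans b) l f ?_ F
        have e := t1 _ _ (Nat.succ_le_succ a)
        have : tk r J / (8 * R) ≤ d j / (2 * R) := by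
          rw [div_le_div_iff₀ (by positivity) (by positivity)]
          have := t0 J
          nlinarith
        linarith
    _ ≤ K * (16 * R * (K' * (J : ℝ) ^ 2)) := by
        rw [← Finset.mul_sum]
        exact mul_le_mul_of_nonneg_left
          (h1.trans (mul_le_mul_of_nonneg_left hw (by positivity))) K0
    _ = _ := by ring

theorem vf (hG : S_CG) (hV : S_VS0) : S_VF := by
  intro r c κ u₀ p θ H Q Y₀ η Y D m N a W ⟨c₀, R, Λ, c0, R1, cR, F⟩
  obtain ⟨C₀, hp⟩ := D.pol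
  obtain ⟨Λ', K, hV⟩ := hV r C₀ c₀ R _ Q p (hG r c θ H Q D.cur) (fun y hy => (hp y hy).1) c0 R1 cR
  refine ⟨16 * K, max Λ Λ', fun L L1 P hP => ?_⟩
  have key : ∀ k, ∃ u, k ∈ P → Di.Pk η u₀ a u ∧ max Λ Λ' * u ≤ η u ∧ tk r (k + 1) < η u ∧
      η u ≤ tk r k := fun k => by
    by_cases hk : k ∈ P
    · obtain ⟨u, hu⟩ := (hP k hk).2
      exact ⟨u, fun _ => hu⟩
    · exact ⟨0, fun h => absurd h hk⟩
  choose u hu using key
  have h1 := hV L P u (fun k => η (u k)) L1 fun k hk => by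
    obtain ⟨a1, a2, a3, a4⟩ := hu k hk
    have u0 := a1.1.1
    obtain ⟨b1, b2⟩ := F _ a1 ((mul_le_mul_of_nonneg_right (le_max_left _ _) u0.le).trans a2)
    exact ⟨(hP k hk).1, u0, (mul_le_mul_of_nonneg_right (le_max_right _ _) u0.le).trans a2, a3, a4,
      b1, b2⟩
  rw [mul_assoc]
  refine le_trans ?_ (mul_le_mul_of_nonneg_left h1 (by norm_num))
  rw [Finset.mul_sum]
  refine Finset.sum_le_sum fun k hk => ?_
  obtain ⟨⟨⟨u0, -⟩, e0, a1⟩, -, a3, a4⟩ := hu k hk
  have t3 : tk r (k + 1) = tk r k / 2 := by unfold tk; ring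
  have b0 := W.env.one (η (u k))
  have b1 := W.env.one (tk r k)
  have b2 := W.env.dec (tk r k) (η (u k)) e0 a4
  have N0 : N ≠ 0 := by have := W.N8; omega
  have b3 : a (tk r k) ^ N ≤ (2 * a (η (u k))) ^ N := by
    have h2 : (2 : ℝ) ≤ 2 ^ N := le_self_pow₀ one_le_two N0
    have h3 : 0 < a (η (u k)) ^ N := by positivity
    refine le_of_mul_le_mul_right (b2.trans ?_) e0
    rw [mul_pow, mul_comm ((2 : ℝ) ^ N), mul_assoc]
    exact mul_le_mul_of_nonneg_left (by nlinarith) h3.le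
  have b4 := le_of_pow_le_pow_left₀ N0 (by positivity) b3
  have b5 : a (η (u k)) ≤ 2 * (η (u k) / u k) := by
    rw [← mul_div_assoc, le_div_iff₀ u0]
    exact a1
  calc a (tk r k) ^ 2 ≤ (4 * (η (u k) / u k)) ^ 2 := pow_le_pow_left₀ (by linarith) (by linarith) 2
    _ = _ := by ring

end Vale.Agent.P097F.V
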