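import Vale.Agent.P097F.V.Cg
import Vale.Agent.P097F.V.Green
import Vale.Agent.P097F.V.Pot
import Vale.Agent.P097F.V.Chd
import Vale.Agent.P097F.V.Avg
import Vale.Agent.P097F.V.Flat
import Vale.Agent.P097F.V.One
import Vale.Agent.P097F.V.Sum
import Vale.Agent.P097F.V.Vs
import Vale.Agent.P097F.V.Frc
import Vale.Agent.P097F.Di.Out

/-!
# P097F.V: the dichotomy
-/

set_option linter.all false

namespace Vale.Agent.P097F.V

theorem vfC : S_VF := vf cg (vs0 (pot green) (one chd avg) sum)

theorem dich : Di.Spec_DICH := dich_of (frc flat) vfC Di.tha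

theorem specDICH : P097F.Spec_DICH := Di.dich12 dich

end Vale.Agent.P097F.V
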