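import Vale.Agent.P097F.V.Defs
import Vale.Agent.P097M.Gq0

/-!
# P097F.V: the curve
-/

noncomputable section

namespace Vale.Agent.P097F.V

open Complex

theorem cg : S_CG := by
  intro r c θ H Q C
  have E := P097E.PB.fn_of_cur C
  refine ⟨P097M.gq0 r c θ H Q C, E.perf, fun x => ?_, C.pos⟩
  have h := E.cjf (x : ℂ) (by
    show |(x : ℂ).im| < r
    rw [ofReal_im, abs_zero]; exact C.rpos)
  rw [conj_ofReal] at h
  exact conj_eq_iff_im.1 h.symm

end Vale.Agent.P097F.V
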