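import Vale.Agent.P097O.BdDefs
import Vale.Agent.P097F.Di.Defs

/-!
# P097F.V: the sum of the squares of the peaks (definitions and statements)
-/

set_option linter.all false

noncomputable section

namespace Vale.Agent.P097F.V

open Filter Topology Set Metric MeasureTheory Complex
open Vale.Agent.P097T (Strip)
open Vale.Agent.P097M (GQ Gs)
open Vale.Agent.P097K (Lv Few)
open Vale.Agent.P097O (APt Box)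

/-- the depth of level `k` -/
def tk (r : ℝ) (k : ℕ) : ℝ := r * (1 / 2) ^ k

/-- centres of the windows which contain a large value of `g` -/
def Act (r : ℝ) (g : ℂ → ℂ) (u d δ R : ℝ) : Set ℝ := {s | ∃ y : ℂ, |y.re - s| ≤ R * d ∧
  d / R ≤ r - y.im ∧ r - y.im ≤ R * d ∧ δ ≤ ‖g y‖ * u}

/-- the curve -/
structure CG (r : ℝ) (g Q : ℂ → ℂ) : Prop where
  gq : GQ r g Q
  per : ∀ y ∈ Strip r, g (y + 1) = g y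
  re : ∀ x : ℝ, (g x).im = 0
  pos : ∀ x : ℝ, 0 < (g x).re

/-- a disc on which the equation is convex in the direction `l + I` -/
def Flat (r : ℝ) (Q : ℂ → ℂ) (s u d c R : ℝ) : Prop := ∃ (y : ℂ) (l : ℝ), |l| ≤ 2 ∧
  |y.re - s| ≤ R * d ∧ d / R ≤ r - y.im ∧ r - y.im ≤ R * d ∧
    ∀ z ∈ ball y (c * d), c ≤ (Q z * (l + I) ^ 2).re * u ^ 2

/-- most windows contain such a disc -/
def Frc (r : ℝ) (Q : ℂ → ℂ) (u d c R : ℝ) : Prop := ∃ B : Set ℝ,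
  volume (B ∩ Ico 0 1) ≤ ENNReal.ofReal (1 / 2) ∧ ∀ s ∉ B, Flat r Q s u d c R

/-- a continuous nonnegative periodic density -/
structure Den (f : ℝ → ℝ → ℝ) : Prop where
  cn : Continuous (Function.uncurry f)
  nn : ∀ x t, 0 ≤ f x t
  per : ∀ x t, f (x + 1) t = f x t

/-- the energy density `w` and the penalty `χ` below the height `T` -/
structure Pot (g : ℂ → ℂ) (T ε : ℝ) (w χ : ℝ → ℝ → ℝ) : Prop where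
  dw : Den w
  dχ : Den χ
  mean : ∀ t ∈ Icc 0 T, ∫ x in (0 : ℝ)..1, χ x t ≤ ε
  low : ∀ x t k : ℝ, t ∈ Icc 0 T → 0 ≤ k →
    k * ‖g (x + t * I)‖ ≤ 12 * ‖deriv g (x + t * I)‖ → k ^ 2 / 72 ≤ w x t + k ^ 2 / 72 * χ x t

/-- the sum of the squares of the forced activities -/
def VS0 (r : ℝ) (Q : ℂ → ℂ) (c R : ℝ) : Prop := ∃ Λ K : ℝ, ∀ (J : ℕ) (S : Finset ℕ) (u d : ℕ → ℝ),
  1 ≤ J → (∀ j ∈ S, j ≤ J ∧ 0 < u j ∧ Λ * u j ≤ d j ∧ tk r (j + 1) < d j ∧ d j ≤ tk r j ∧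
    2 * R * d j ≤ r ∧ Frc r Q (u j) (d j) c R) → ∑ j ∈ S, (d j / u j) ^ 2 ≤ K * (J : ℝ) ^ 2

/-- the high peaks are forced -/
def FRC (r u₀ : ℝ) (η : ℝ → ℝ) (Q : ℂ → ℂ) (a : ℝ → ℝ) : Prop := ∃ c R Λ : ℝ, 0 < c ∧ 1 ≤ R ∧
  2 * c * R ≤ 1 ∧ ∀ u, Di.Pk η u₀ a u → Λ * u ≤ η u →
    2 * R * η u ≤ r ∧ Frc r Q u (η u) c R

/-! ## The rows -/

/-- 8401 -/
def S_CG : Prop := ∀ (r c : ℝ) (θ H Q : ℂ → ℂ), P097Top.Cur r c θ H Q → CG r (deriv θ) Q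

/-- 8402: Green formula on the periodic strip -/
def S_GREEN : Prop := ∀ (r T : ℝ) (g Q : ℂ → ℂ) (Ψ Ψ₁ Ψ₂ : ℝ → ℝ), CG r g Q → 0 ≤ T → T < r →
  (∀ v, 0 ≤ v → HasDerivAt Ψ (Ψ₁ v) v ∧ HasDerivAt Ψ₁ (Ψ₂ v) v) → ContinuousOn Ψ₂ (Ici 0) →
  ∫ x in (0 : ℝ)..1, ∫ t in (0 : ℝ)..T, (T - t) * (4 * ‖deriv g (x + t * I)‖ ^ 2 *
      (‖g (x + t * I)‖ ^ 2 * Ψ₂ (‖g (x + t * I)‖ ^ 2) + Ψ₁ (‖g (x + t * I)‖ ^ 2))) =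
    (∫ x in (0 : ℝ)..1, Ψ (‖g (x + T * I)‖ ^ 2)) - ∫ x in (0 : ℝ)..1, Ψ (‖g x‖ ^ 2)

/-- 8403: the potentials -/
def S_POT : Prop := ∀ (r C₀ ε R : ℝ) (g Q : ℂ → ℂ) (p : ℕ), CG r g Q →
  (∀ y ∈ Strip r, ‖g y‖ * (r - |y.im|) ^ p ≤ C₀) → 0 < ε → 1 ≤ R → ∃ K : ℝ, ∀ (J : ℕ) (T : ℝ),
    1 ≤ J → 0 ≤ T → T ≤ r - tk r J / R → ∃ w χ, Pot g T ε w χ ∧
      ∫ x in (0 : ℝ)..1, ∫ t in (0 : ℝ)..T, (T - t) * w x t ≤ K * (J : ℝ) ^ 2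

/-- 8404: one chord -/
def S_CHD : Prop := ∀ (G q : ℂ → ℂ) (z e : ℂ) (ρ k h : ℝ) (f : ℝ → ℝ), 0 < k → 0 < ρ → 0 ≤ h →
  ‖e‖ ≤ 3 → (∀ σ ∈ Icc (-ρ) ρ, AnalyticAt ℂ G (z + σ * e) ∧
    deriv (deriv G) (z + σ * e) = q (z + σ * e) * G (z + σ * e) ∧
      k ^ 2 ≤ (q (z + σ * e) * e ^ 2).re) →
  ContinuousOn f (Icc (-ρ) ρ) → (∀ σ ∈ Icc (-ρ) ρ, 0 ≤ f σ) →
  (∀ σ ∈ Icc (-ρ) ρ, k * ‖G (z + σ * e)‖ ≤ 12 * ‖deriv G (z + σ * e)‖ → h ≤ f σ) →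
  h * (2 * ρ - 2 / k) ≤ ∫ σ in -ρ..ρ, f σ

/-- 8405: averaging over the windows -/
def S_AVG : Prop := ∀ (f : ℝ → ℝ → ℝ) (B : Set ℝ) (t₀ t₁ D ρ h : ℝ), Den f → t₀ ≤ t₁ → 0 < ρ →
  ρ ≤ D → 0 ≤ h → volume (B ∩ Ico 0 1) ≤ ENNReal.ofReal (1 / 2) →
  (∀ s ∉ B, ∃ x₀ τ l : ℝ, |x₀ - s| ≤ D ∧ |l| ≤ 2 ∧ t₀ ≤ τ - ρ ∧ τ + ρ ≤ t₁ ∧
    ∀ ξ ∈ Icc (-ρ) ρ, h ≤ ∫ σ in -ρ..ρ, f (x₀ + ξ + l * σ) (τ + σ)) →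
  ρ * h ≤ 8 * D * ∫ x in (0 : ℝ)..1, ∫ t in t₀..t₁, f x t

/-- 8406: a large value of `Q` gives a flat disc -/
def S_FLAT : Prop := ∀ R B c₀ : ℝ, 1 ≤ R → 0 < c₀ → ∃ c : ℝ, 0 < c ∧ 2 * c * R ≤ 1 ∧
  ∀ (r s u d : ℝ) (g Q : ℂ → ℂ), GQ r g Q → 0 < u → 0 < d → 2 * R * d ≤ r →
    Box r g Q s u d (2 * R) B → APt r g Q s u d c₀ R → s ∉ Act r g u d c₀ R → Flat r Q s u d c R

/-- 8407: the energy of one forced level -/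
def S_ONE : Prop := ∀ c R : ℝ, 0 < c → 1 ≤ R → 2 * c * R ≤ 1 → ∃ ε Λ K : ℝ, 0 < ε ∧ 0 ≤ K ∧
  ∀ (r T u d : ℝ) (g Q : ℂ → ℂ) (w χ : ℝ → ℝ → ℝ), GQ r g Q → Pot g T ε w χ → 0 < u → 0 < d →
    Λ * u ≤ d → 2 * R * d ≤ r → r - d / (2 * R) ≤ T → Frc r Q u d c R →
    (d / u) ^ 2 ≤ K * (d * ∫ x in (0 : ℝ)..1, ∫ t in (r - 2 * R * d)..(r - d / (2 * R)), w x t)

/-- 8408: the overlap of the layers -/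
def S_SUM : Prop := ∀ (r R : ℝ) (w : ℝ → ℝ → ℝ) (J : ℕ) (S : Finset ℕ) (d : ℕ → ℝ), 0 < r →
  1 ≤ R → Den w → (∀ j ∈ S, j ≤ J ∧ tk r (j + 1) < d j ∧ d j ≤ tk r j ∧ 2 * R * d j ≤ r) →
  ∑ j ∈ S, d j * ∫ x in (0 : ℝ)..1, ∫ t in (r - 2 * R * d j)..(r - d j / (2 * R)), w x t ≤
    16 * R * ∫ x in (0 : ℝ)..1, ∫ t in (0 : ℝ)..(r - tk r J / (8 * R)),
      (r - tk r J / (8 * R) - t) * w x t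

/-- 8409 -/
def S_VS0 : Prop := ∀ (r C₀ c R : ℝ) (g Q : ℂ → ℂ) (p : ℕ), CG r g Q →
  (∀ y ∈ Strip r, ‖g y‖ * (r - |y.im|) ^ p ≤ C₀) → 0 < c → 1 ≤ R → 2 * c * R ≤ 1 → VS0 r Q c R

/-- 8410: the peaks are forced -/
def S_FRC : Prop := ∀ r c κ u₀ p θ H Q Y₀ η Y, Dat r c κ u₀ p θ H Q Y₀ η Y → ∀ m N a,
  Di.Wd r u₀ η (deriv θ) Q m N 16 a → Di.GAL r u₀ η (deriv θ) a → FRC r u₀ η Q a

/-- 8411 -/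
def S_VF : Prop := ∀ r c κ u₀ p θ H Q Y₀ η Y, Dat r c κ u₀ p θ H Q Y₀ η Y → ∀ m N a,
  Di.Wd r u₀ η (deriv θ) Q m N 16 a → FRC r u₀ η Q a → Di.VS r u₀ η a

theorem dich_of (A : S_FRC) (V : S_VF) (T : Di.S_THA) : Di.Spec_DICH := by
  intro r c κ u₀ p θ H Q Y₀ η Y D m N j a hj W
  rcases Di.gal_or r u₀ η (deriv θ) a with G | G
  · have W' := W.mono hj
    exact Or.inl (T _ _ _ _ _ _ _ _ _ _ _ D m N a W' G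
      (V _ _ _ _ _ _ _ _ _ _ _ D m N a W' (A _ _ _ _ _ _ _ _ _ _ _ D m N a W' G)))
  · exact Or.inr G

end Vale.Agent.P097F.V
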